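import Vale.Agent.P272.K.C2.Wirt
import Mathlib.Analysis.Analytic.Basic
import Mathlib.Analysis.Calculus.FDeriv.Analytic
import Mathlib.Analysis.Calculus.FDeriv.RestrictScalars

/-!
# P281, project T-L, block B3b: the complex Hessian of `log (|u|² m + s² m + ε)`
-/

open Set Filter Metric Vale.Agent.P272.K Vale.Agent.P272.K.C2
open scoped Topology ContDiff ComplexConjugate

noncomputable section

namespace Vale.Agent.P281.H167

variable {d : ℕ} {z : Cm d}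

/-! ### Holomorphic functions -/

lemma fderiv_real {f : Cm d → ℂ} {y : Cm d} (hf : DifferentiableAt ℂ f y) (v : Cm d) :
    fderiv ℝ f y v = fderiv ℂ f y v := by
  have h := hf.hasFDerivAt.restrictScalars ℝ
  rw [h.fderiv]; rfl

lemma dz_hol {f : Cm d → ℂ} {y : Cm d} (hf : DifferentiableAt ℂ f y) (j : Fin d) :
    dz j f y = fderiv ℂ f y (Pi.single j 1) := by
  have h1 : (Pi.single j Complex.I : Cm d) = Complex.I • (Pi.single j 1 : Cm d) := by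
    rw [← Pi.single_smul]; simp
  unfold dz
  rw [fderiv_real hf, fderiv_real hf, h1, map_smul, smul_eq_mul, ← mul_assoc, Complex.I_mul_I]
  ring

lemma dzb_hol {f : Cm d → ℂ} {y : Cm d} (hf : DifferentiableAt ℂ f y) (j : Fin d) :
    dzb j f y = 0 := by
  have h1 : (Pi.single j Complex.I : Cm d) = Complex.I • (Pi.single j 1 : Cm d) := by
    rw [← Pi.single_smul]; simp
  unfold dzb
  rw [fderiv_real hf, fderiv_real hf, h1, map_smul, smul_eq_mul, ← mul_assoc, Complex.I_mul_I]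
  ring

lemma ev_diff {f : Cm d → ℂ} (hf : AnalyticAt ℂ f z) : ∀ᶠ y in 𝓝 z, DifferentiableAt ℂ f y := by
  filter_upwards [hf.eventually_analyticAt] with y hy using hy.differentiableAt

lemma real_diff {f : Cm d → ℂ} {y : Cm d} (hf : DifferentiableAt ℂ f y) :
    DifferentiableAt ℝ f y := hf.restrictScalars ℝ

lemma conj_diff {f : Cm d → ℂ} {y : Cm d} (hf : DifferentiableAt ℂ f y) :
    DifferentiableAt ℝ (fun y => conj (f y)) y := differentiableAt_conj (real_diff hf)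

lemma dz_conj_hol {f : Cm d → ℂ} {y : Cm d} (hf : DifferentiableAt ℂ f y) (j : Fin d) :
    dz j (fun y => conj (f y)) y = 0 := by
  rw [dz_conj j (real_diff hf), dzb_hol hf, map_zero]

lemma dzb_conj_hol {f : Cm d → ℂ} {y : Cm d} (hf : DifferentiableAt ℂ f y) (j : Fin d) :
    dzb j (fun y => conj (f y)) y = conj (fderiv ℂ f y (Pi.single j 1)) := by
  rw [dzb_conj j (real_diff hf), dz_hol hf]

lemma an_fderiv {f : Cm d → ℂ} (hf : AnalyticAt ℂ f z) (v : Cm d) :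
    AnalyticAt ℂ (fun y => fderiv ℂ f y v) z := by
  have h := hf.fderiv
  exact (ContinuousLinearMap.apply ℂ ℂ v).analyticAt _ |>.comp h

/-- The function `|u|² m + s² m + ε`. -/
def gf (u : Cm d → ℂ) (m : Cm d → ℝ) (s ε : ℝ) (y : Cm d) : ℝ :=
  ‖u y‖ ^ 2 * m y + s ^ 2 * m y + ε

lemma gf_ofReal (u : Cm d → ℂ) (m : Cm d → ℝ) (s ε : ℝ) (y : Cm d) :
    ((gf u m s ε y : ℝ) : ℂ) = u y * conj (u y) * (m y : ℂ) + (s : ℂ) ^ 2 * (m y : ℂ) + (ε : ℂ) := by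
  unfold gf
  push_cast
  rw [Complex.mul_conj, Complex.normSq_eq_norm_sq]
  push_cast
  ring

section
variable {u : Cm d → ℂ} {m : Cm d → ℝ} (s ε : ℝ)

lemma dz_gf {y : Cm d} (hu : DifferentiableAt ℂ u y) (hm : DifferentiableAt ℝ m y) (j : Fin d) :
    dz j (fun y => ((gf u m s ε y : ℝ) : ℂ)) y =
      fderiv ℂ u y (Pi.single j 1) * conj (u y) * (m y : ℂ) +
        (u y * conj (u y) + (s : ℂ) ^ 2) * dz j (fun y => (m y : ℂ)) y := by
  have e : (fun y => ((gf u m s ε y : ℝ) : ℂ)) =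
      fun y => (u y * conj (u y) * (m y : ℂ) + (s : ℂ) ^ 2 * (m y : ℂ)) + (ε : ℂ) := by
    funext y; rw [gf_ofReal]
  have hM := differentiableAt_ofReal hm
  have hU := real_diff hu
  have hC := conj_diff hu
  have h1 : DifferentiableAt ℝ (fun y => u y * conj (u y)) y := hU.mul hC
  have h2 : DifferentiableAt ℝ (fun y => u y * conj (u y) * (m y : ℂ)) y := h1.mul hM
  have h3 : DifferentiableAt ℝ (fun y => (s : ℂ) ^ 2 * (m y : ℂ)) y := hM.const_mul _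
  have h4 : DifferentiableAt ℝ (fun y => u y * conj (u y) * (m y : ℂ) + (s : ℂ) ^ 2 * (m y : ℂ)) y :=
    h2.add h3
  rw [e, dz_add j h4 (differentiableAt_const _), dz_const, dz_add j h2 h3, dz_mul j h1 hM,
    dz_mul j hU hC, dz_const_mul j _ hM, dz_conj_hol hu, dz_hol hu]
  ring

lemma dzb_gf {y : Cm d} (hu : DifferentiableAt ℂ u y) (hm : DifferentiableAt ℝ m y) (k : Fin d) :
    dzb k (fun y => ((gf u m s ε y : ℝ) : ℂ)) y =
      u y * conj (fderiv ℂ u y (Pi.single k 1)) * (m y : ℂ) +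
        (u y * conj (u y) + (s : ℂ) ^ 2) * dzb k (fun y => (m y : ℂ)) y := by
  have e : (fun y => ((gf u m s ε y : ℝ) : ℂ)) =
      fun y => (u y * conj (u y) * (m y : ℂ) + (s : ℂ) ^ 2 * (m y : ℂ)) + (ε : ℂ) := by
    funext y; rw [gf_ofReal]
  have hM := differentiableAt_ofReal hm
  have hU := real_diff hu
  have hC := conj_diff hu
  have h1 : DifferentiableAt ℝ (fun y => u y * conj (u y)) y := hU.mul hC
  have h2 : DifferentiableAt ℝ (fun y => u y * conj (u y) * (m y : ℂ)) y := h1.mul hM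
  have h3 : DifferentiableAt ℝ (fun y => (s : ℂ) ^ 2 * (m y : ℂ)) y := hM.const_mul _
  have h4 : DifferentiableAt ℝ (fun y => u y * conj (u y) * (m y : ℂ) + (s : ℂ) ^ 2 * (m y : ℂ)) y :=
    h2.add h3
  rw [e, dzb_add k h4 (differentiableAt_const _), dzb_const, dzb_add k h2 h3, dzb_mul k h1 hM,
    dzb_mul k hU hC, dzb_const_mul k _ hM, dzb_conj_hol hu, dzb_hol hu]
  ring

lemma cHess_gf (hu : AnalyticAt ℂ u z) (hm : ContDiffAt ℝ 2 m z) (j k : Fin d) :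
    cHess (gf u m s ε) z j k =
      fderiv ℂ u z (Pi.single j 1) * conj (fderiv ℂ u z (Pi.single k 1)) * (m z : ℂ) +
      u z * conj (fderiv ℂ u z (Pi.single k 1)) * dz j (fun y => (m y : ℂ)) z +
      fderiv ℂ u z (Pi.single j 1) * conj (u z) * dzb k (fun y => (m y : ℂ)) z +
      (u z * conj (u z) + (s : ℂ) ^ 2) * cHess m z j k := by
  have hm' : ∀ᶠ y in 𝓝 z, ContDiffAt ℝ 2 m y := eventually_contDiffAt (m := 2) hm
  have hmd : DifferentiableAt ℝ m z := hm.differentiableAt (by norm_num)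
  have hud := hu.differentiableAt
  have huk : DifferentiableAt ℂ (fun y => fderiv ℂ u y (Pi.single k 1)) z :=
    (an_fderiv hu _).differentiableAt
  have e : (dzb k fun y => ((gf u m s ε y : ℝ) : ℂ)) =ᶠ[𝓝 z]
      fun y => u y * conj (fderiv ℂ u y (Pi.single k 1)) * (m y : ℂ) +
        (u y * conj (u y) + (s : ℂ) ^ 2) * dzb k (fun y => (m y : ℂ)) y := by
    filter_upwards [hm', ev_diff hu] with y h1 h2
    exact dzb_gf s ε h2 (h1.differentiableAt (by norm_num)) k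
  have hM := differentiableAt_ofReal hmd
  have hU := real_diff hud
  have hC := conj_diff hud
  have hK := conj_diff huk
  have hB := differentiableAt_dzb k (contDiffAt_ofReal hm)
  have h0 : DifferentiableAt ℝ (fun y => u y * conj (u y)) z := hU.mul hC
  have hN : DifferentiableAt ℝ (fun y => u y * conj (u y) + (s : ℂ) ^ 2) z :=
    h0.add (differentiableAt_const _)
  have h1 : DifferentiableAt ℝ (fun y => u y * conj (fderiv ℂ u y (Pi.single k 1))) z := hU.mul hK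
  have h2 : DifferentiableAt ℝ
      (fun y => u y * conj (fderiv ℂ u y (Pi.single k 1)) * (m y : ℂ)) z := h1.mul hM
  have h3 : DifferentiableAt ℝ
      (fun y => (u y * conj (u y) + (s : ℂ) ^ 2) * dzb k (fun y => (m y : ℂ)) y) z := hN.mul hB
  rw [cHess_apply, dz_congr j e, dz_add j h2 h3, dz_mul j h1 hM, dz_mul j hU hK, dz_mul j hN hB,
    dz_add j h0 (differentiableAt_const _), dz_const, dz_mul j hU hC,
    dz_conj_hol hud, dz_conj_hol huk, dz_hol hud, cHess_apply]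
  ring

end

/-! ### The Levi form -/

lemma sum_single (L : Cm d →L[ℂ] ℂ) (ξ : Cm d) : ∑ j, L (Pi.single j 1) * ξ j = L ξ := by
  conv_rhs => rw [← Finset.univ_sum_single ξ, map_sum]
  refine Finset.sum_congr rfl fun j _ => ?_
  have : (Pi.single j (ξ j) : Cm d) = ξ j • (Pi.single j 1 : Cm d) := by
    rw [← Pi.single_smul]; simp
  rw [this, map_smul, smul_eq_mul, mul_comm]

/-- The Levi form. -/
def lev (f : Cm d → ℝ) (z ξ : Cm d) : ℂ := ∑ j, ∑ k, cHess f z j k * ξ j * conj (ξ k)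

/-- The derivative `∂f` in the direction `ξ`. -/
def dd (f : Cm d → ℝ) (z ξ : Cm d) : ℂ := ∑ j, dz j (fun y => (f y : ℂ)) z * ξ j

lemma sum_dzb {f : Cm d → ℝ} (hf : DifferentiableAt ℝ f z) (ξ : Cm d) :
    ∑ k, dzb k (fun y => (f y : ℂ)) z * conj (ξ k) = conj (dd f z ξ) := by
  unfold dd
  rw [map_sum]
  refine Finset.sum_congr rfl fun k _ => ?_
  rw [dzb_real k hf, map_mul]

lemma sum_mul_sum' (a b : Fin d → ℂ) (ξ : Cm d) :
    ∑ j, ∑ k, (a j * b k) * ξ j * conj (ξ k) = (∑ j, a j * ξ j) * ∑ k, b k * conj (ξ k) := by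
  rw [Finset.sum_mul_sum]
  refine Finset.sum_congr rfl fun j _ => Finset.sum_congr rfl fun k _ => ?_
  ring

lemma lev_log {g : Cm d → ℝ} (hg : ContDiffAt ℝ 2 g z) (h0 : 0 < g z) (ξ : Cm d) :
    lev (fun y => Real.log (g y)) z ξ =
      ((g z)⁻¹ : ℂ) * lev g z ξ - ((g z ^ 2)⁻¹ : ℂ) * (dd g z ξ * conj (dd g z ξ)) := by
  have hd : DifferentiableAt ℝ g z := hg.differentiableAt (by norm_num)
  have e : ∀ j k, cHess (fun y => Real.log (g y)) z j k * ξ j * conj (ξ k) =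
      ((g z)⁻¹ : ℂ) * (cHess g z j k * ξ j * conj (ξ k)) - ((g z ^ 2)⁻¹ : ℂ) *
        ((dz j (fun y => (g y : ℂ)) z * dzb k (fun y => (g y : ℂ)) z) * ξ j * conj (ξ k)) := by
    intro j k
    rw [cHess_log hg h0]; ring
  unfold lev
  simp only [e, Finset.sum_sub_distrib, ← Finset.mul_sum]
  rw [sum_mul_sum' (fun j => dz j (fun y => (g y : ℂ)) z) (fun k => dzb k (fun y => (g y : ℂ)) z),
    sum_dzb hd]
  rfl

lemma lev_gf {u : Cm d → ℂ} {m : Cm d → ℝ} (s ε : ℝ) (hu : AnalyticAt ℂ u z)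
    (hm : ContDiffAt ℝ 2 m z) (ξ : Cm d) :
    lev (gf u m s ε) z ξ =
      fderiv ℂ u z ξ * conj (fderiv ℂ u z ξ) * (m z : ℂ) +
      u z * conj (fderiv ℂ u z ξ) * dd m z ξ + fderiv ℂ u z ξ * conj (u z) * conj (dd m z ξ) +
      (u z * conj (u z) + (s : ℂ) ^ 2) * lev m z ξ := by
  have hmd : DifferentiableAt ℝ m z := hm.differentiableAt (by norm_num)
  have hs := sum_single (fderiv ℂ u z) ξ
  have hs' : ∑ k, conj (fderiv ℂ u z (Pi.single k 1)) * conj (ξ k) = conj (fderiv ℂ u z ξ) := by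
    rw [← hs, map_sum]
    exact Finset.sum_congr rfl fun k _ => (map_mul _ _ _).symm
  have e : ∀ j k, cHess (gf u m s ε) z j k * ξ j * conj (ξ k) =
      (m z : ℂ) * ((fderiv ℂ u z (Pi.single j 1) * conj (fderiv ℂ u z (Pi.single k 1))) * ξ j *
        conj (ξ k)) +
      u z * ((dz j (fun y => (m y : ℂ)) z * conj (fderiv ℂ u z (Pi.single k 1))) * ξ j *
        conj (ξ k)) +
      conj (u z) * ((fderiv ℂ u z (Pi.single j 1) * dzb k (fun y => (m y : ℂ)) z) * ξ j *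
        conj (ξ k)) +
      (u z * conj (u z) + (s : ℂ) ^ 2) * (cHess m z j k * ξ j * conj (ξ k)) := by
    intro j k
    rw [cHess_gf s ε hu hm]; ring
  unfold lev
  simp only [e, Finset.sum_add_distrib, ← Finset.mul_sum]
  rw [sum_mul_sum' (fun j => fderiv ℂ u z (Pi.single j 1))
      (fun k => conj (fderiv ℂ u z (Pi.single k 1))),
    sum_mul_sum' (fun j => dz j (fun y => (m y : ℂ)) z)
      (fun k => conj (fderiv ℂ u z (Pi.single k 1))),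
    sum_mul_sum' (fun j => fderiv ℂ u z (Pi.single j 1)) (fun k => dzb k (fun y => (m y : ℂ)) z),
    sum_dzb hmd, hs, hs']
  change _ = _ + _ * dd m z ξ + _ + _
  rw [show (∑ j, dz j (fun y => (m y : ℂ)) z * ξ j) = dd m z ξ from rfl]
  ring

lemma dd_gf {u : Cm d → ℂ} {m : Cm d → ℝ} (s ε : ℝ) (hu : DifferentiableAt ℂ u z)
    (hm : DifferentiableAt ℝ m z) (ξ : Cm d) :
    dd (gf u m s ε) z ξ =
      fderiv ℂ u z ξ * conj (u z) * (m z : ℂ) + (u z * conj (u z) + (s : ℂ) ^ 2) * dd m z ξ := by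
  have hs := sum_single (fderiv ℂ u z) ξ
  have e : ∀ j, dz j (fun y => ((gf u m s ε y : ℝ) : ℂ)) z * ξ j =
      (conj (u z) * (m z : ℂ)) * (fderiv ℂ u z (Pi.single j 1) * ξ j) +
        (u z * conj (u z) + (s : ℂ) ^ 2) * (dz j (fun y => (m y : ℂ)) z * ξ j) := by
    intro j
    rw [dz_gf s ε hu hm]; ring
  unfold dd
  simp only [e, Finset.sum_add_distrib, ← Finset.mul_sum, hs]
  ring

/-! ### The inequality -/

lemma contDiff_gf {u : Cm d → ℂ} {m : Cm d → ℝ} (s ε : ℝ) (hu : AnalyticAt ℂ u z)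
    (hm : ContDiffAt ℝ 2 m z) : ContDiffAt ℝ 2 (gf u m s ε) z := by
  have h1 : ContDiffAt ℝ 2 u z := (hu.contDiffAt (n := 2)).restrict_scalars ℝ
  have h2 : ContDiffAt ℝ 2 (fun y => ‖u y‖ ^ 2) z := h1.norm_sq ℝ
  unfold gf
  exact ((h2.mul hm).add (contDiffAt_const.mul hm)).add contDiffAt_const

/-- The algebraic identity behind the inequality. -/
lemma alg (U V X H : ℂ) (M s ε : ℝ) (hM : 0 < M) (hε : 0 < ε) (hU : U ≠ 0) :
    (‖U‖ ^ 2 + s ^ 2) * M / ((‖U‖ ^ 2 + s ^ 2) * M + ε) * (H.re / M - ‖X‖ ^ 2 / M ^ 2) +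
      ‖U‖ ^ 2 * M * (s ^ 2 * M) / ((‖U‖ ^ 2 + s ^ 2) * M + ε) ^ 2 * ‖V / U‖ ^ 2 ≤
    (‖V‖ ^ 2 * M + 2 * (V * conj U * conj X).re + (‖U‖ ^ 2 + s ^ 2) * H.re) /
        ((‖U‖ ^ 2 + s ^ 2) * M + ε) -
      ‖V * conj U * M + (‖U‖ ^ 2 + s ^ 2 : ℝ) * X‖ ^ 2 / ((‖U‖ ^ 2 + s ^ 2) * M + ε) ^ 2 := by
  have hg : 0 < (‖U‖ ^ 2 + s ^ 2) * M + ε := by positivity
  have hUn : 0 < ‖U‖ := norm_pos_iff.mpr hU
  have hVU : ‖V / U‖ ^ 2 = ‖V‖ ^ 2 / ‖U‖ ^ 2 := by rw [norm_div, div_pow]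
  set R : ℝ := (V * conj U * conj X).re with hR
  have hsq : ‖V * conj U * M + (‖U‖ ^ 2 + s ^ 2 : ℝ) * X‖ ^ 2 =
      ‖V‖ ^ 2 * ‖U‖ ^ 2 * M ^ 2 + 2 * ((‖U‖ ^ 2 + s ^ 2) * M) * R +
        (‖U‖ ^ 2 + s ^ 2) ^ 2 * ‖X‖ ^ 2 := by
    have e1 : ∀ w : ℂ, ‖w‖ ^ 2 = w.re ^ 2 + w.im ^ 2 := fun w => by
      rw [← Complex.normSq_eq_norm_sq, Complex.normSq_apply]; ring
    rw [hR]
    simp only [e1]
    simp only [Complex.add_re, Complex.add_im, Complex.mul_re, Complex.mul_im, Complex.conj_re,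
      Complex.conj_im, Complex.ofReal_re, Complex.ofReal_im]
    ring
  have hkey : 0 ≤ M * ‖V‖ ^ 2 + 2 * R + (‖U‖ ^ 2 + s ^ 2) * ‖X‖ ^ 2 / M := by
    have h1 : 0 ≤ ‖(M : ℂ) * V + U * X‖ ^ 2 := by positivity
    have h2 : ‖(M : ℂ) * V + U * X‖ ^ 2 = M ^ 2 * ‖V‖ ^ 2 + 2 * M * R + ‖U‖ ^ 2 * ‖X‖ ^ 2 := by
      have e1 : ∀ w : ℂ, ‖w‖ ^ 2 = w.re ^ 2 + w.im ^ 2 := fun w => by
        rw [← Complex.normSq_eq_norm_sq, Complex.normSq_apply]; ring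
      rw [hR]
      simp only [e1]
      simp only [Complex.add_re, Complex.add_im, Complex.mul_re, Complex.mul_im, Complex.conj_re,
        Complex.conj_im, Complex.ofReal_re, Complex.ofReal_im]
      ring
    have h3 : M * ‖V‖ ^ 2 + 2 * R + (‖U‖ ^ 2 + s ^ 2) * ‖X‖ ^ 2 / M =
        (M ^ 2 * ‖V‖ ^ 2 + 2 * M * R + ‖U‖ ^ 2 * ‖X‖ ^ 2 + s ^ 2 * ‖X‖ ^ 2) / M := by
      field_simp
      ring
    rw [h3]
    apply div_nonneg _ hM.le
    nlinarith [sq_nonneg (s * ‖X‖)]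
  rw [hVU, hsq]
  have hdiff : (‖V‖ ^ 2 * M + 2 * R + (‖U‖ ^ 2 + s ^ 2) * H.re) /
        ((‖U‖ ^ 2 + s ^ 2) * M + ε) -
      (‖V‖ ^ 2 * ‖U‖ ^ 2 * M ^ 2 + 2 * ((‖U‖ ^ 2 + s ^ 2) * M) * R +
        (‖U‖ ^ 2 + s ^ 2) ^ 2 * ‖X‖ ^ 2) / ((‖U‖ ^ 2 + s ^ 2) * M + ε) ^ 2 -
      ((‖U‖ ^ 2 + s ^ 2) * M / ((‖U‖ ^ 2 + s ^ 2) * M + ε) * (H.re / M - ‖X‖ ^ 2 / M ^ 2) +
      ‖U‖ ^ 2 * M * (s ^ 2 * M) / ((‖U‖ ^ 2 + s ^ 2) * M + ε) ^ 2 * (‖V‖ ^ 2 / ‖U‖ ^ 2)) =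
      ε / ((‖U‖ ^ 2 + s ^ 2) * M + ε) ^ 2 *
        (M * ‖V‖ ^ 2 + 2 * R + (‖U‖ ^ 2 + s ^ 2) * ‖X‖ ^ 2 / M) := by
    have hU2 : ‖U‖ ≠ 0 := hUn.ne'
    field_simp
    ring
  have hpos : 0 ≤ ε / ((‖U‖ ^ 2 + s ^ 2) * M + ε) ^ 2 *
        (M * ‖V‖ ^ 2 + 2 * R + (‖U‖ ^ 2 + s ^ 2) * ‖X‖ ^ 2 / M) := by positivity
  linarith [hdiff, hpos]

theorem hess_core (u : Cm d → ℂ) (m : Cm d → ℝ) (z : Cm d) (s ε : ℝ) (ξ : Cm d)
    (hε : 0 < ε) (hu : AnalyticAt ℂ u z) (h0 : u z ≠ 0) (hm : ContDiffAt ℝ ∞ m z)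
    (hm0 : 0 < m z) : ∃ c : ℝ, 0 ≤ c ∧ c ≤ 1 ∧
      c * (∑ j, ∑ k, cHess (fun z => Real.log (m z)) z j k * ξ j * conj (ξ k)).re +
        ‖u z‖ ^ 2 * m z * (s ^ 2 * m z) / (‖u z‖ ^ 2 * m z + s ^ 2 * m z + ε) ^ 2 *
          ‖fderiv ℂ u z ξ / u z‖ ^ 2 ≤
      (∑ j, ∑ k, cHess (fun z => Real.log (‖u z‖ ^ 2 * m z + s ^ 2 * m z + ε)) z j k *
        ξ j * conj (ξ k)).re := by
  have hm2 : ContDiffAt ℝ 2 m z := hm.of_le (by
    have h : ((2 : ℕ∞) : WithTop ℕ∞) ≤ ((⊤ : ℕ∞) : WithTop ℕ∞) := WithTop.coe_le_coe.mpr le_top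
    exact h)
  have hmd : DifferentiableAt ℝ m z := hm2.differentiableAt (by norm_num)
  have hg : 0 < (‖u z‖ ^ 2 + s ^ 2) * m z + ε := by positivity
  have hgz : gf u m s ε z = (‖u z‖ ^ 2 + s ^ 2) * m z + ε := by unfold gf; ring
  have hg' : 0 < gf u m s ε z := by rw [hgz]; exact hg
  have hnorm : ∀ w : ℂ, w * conj w = ((‖w‖ ^ 2 : ℝ) : ℂ) := fun w => by
    rw [Complex.mul_conj, Complex.normSq_eq_norm_sq]
  refine ⟨(‖u z‖ ^ 2 + s ^ 2) * m z / ((‖u z‖ ^ 2 + s ^ 2) * m z + ε), by positivity, ?_, ?_⟩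
  · rw [div_le_one hg]; linarith
  have e1 : (∑ j, ∑ k, cHess (fun z => Real.log (m z)) z j k * ξ j * conj (ξ k)).re =
      (lev m z ξ).re / m z - ‖dd m z ξ‖ ^ 2 / m z ^ 2 := by
    have h := lev_log hm2 hm0 ξ
    have h' : (∑ j, ∑ k, cHess (fun z => Real.log (m z)) z j k * ξ j * conj (ξ k)) =
      lev (fun y => Real.log (m y)) z ξ := rfl
    rw [h', h, hnorm, Complex.sub_re, ← Complex.ofReal_inv, ← Complex.ofReal_pow,
      ← Complex.ofReal_inv, Complex.re_ofReal_mul, Complex.re_ofReal_mul, Complex.ofReal_re]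
    ring
  have e2 : (∑ j, ∑ k, cHess (fun z => Real.log (‖u z‖ ^ 2 * m z + s ^ 2 * m z + ε)) z j k *
        ξ j * conj (ξ k)).re =
      (‖fderiv ℂ u z ξ‖ ^ 2 * m z + 2 * (fderiv ℂ u z ξ * conj (u z) * conj (dd m z ξ)).re +
        (‖u z‖ ^ 2 + s ^ 2) * (lev m z ξ).re) / ((‖u z‖ ^ 2 + s ^ 2) * m z + ε) -
      ‖fderiv ℂ u z ξ * conj (u z) * m z + (‖u z‖ ^ 2 + s ^ 2 : ℝ) * dd m z ξ‖ ^ 2 /
        ((‖u z‖ ^ 2 + s ^ 2) * m z + ε) ^ 2 := by
    have h := lev_log (contDiff_gf s ε hu hm2) hg' ξ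
    have h' : (∑ j, ∑ k, cHess (fun z => Real.log (‖u z‖ ^ 2 * m z + s ^ 2 * m z + ε)) z j k *
        ξ j * conj (ξ k)) = lev (fun y => Real.log (gf u m s ε y)) z ξ := rfl
    have hN : u z * conj (u z) + (s : ℂ) ^ 2 = ((‖u z‖ ^ 2 + s ^ 2 : ℝ) : ℂ) := by
      rw [hnorm]; push_cast; ring
    rw [h', h, hnorm, Complex.sub_re, ← Complex.ofReal_inv, ← Complex.ofReal_pow,
      ← Complex.ofReal_inv, Complex.re_ofReal_mul, Complex.re_ofReal_mul, Complex.ofReal_re,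
      dd_gf s ε hu.differentiableAt hmd, hN, lev_gf s ε hu hm2, hN, hnorm, hgz]
    have hc : (u z * conj (fderiv ℂ u z ξ) * dd m z ξ).re =
        (fderiv ℂ u z ξ * conj (u z) * conj (dd m z ξ)).re := by
      simp only [Complex.mul_re, Complex.mul_im, Complex.conj_re, Complex.conj_im]
      ring
    rw [Complex.add_re, Complex.add_re, Complex.add_re, hc, ← Complex.ofReal_mul,
      Complex.ofReal_re, Complex.re_ofReal_mul]
    ring
  rw [e1, e2]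
  have h3 : ‖u z‖ ^ 2 * m z + s ^ 2 * m z + ε = (‖u z‖ ^ 2 + s ^ 2) * m z + ε := by ring
  rw [h3]
  exact alg (u z) (fderiv ℂ u z ξ) (dd m z ξ) (lev m z ξ) (m z) s ε hm0 hε h0

end Vale.Agent.P281.H167
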