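import Vale.Agent.P281.H969.TL.Spec
import Vale.Agent.P281.H167.HessCore

/-!
# P281, project T-L, block B3b: `HessStmt`
-/

open Vale.Agent.P281.H969.TL

namespace Vale.Agent.P281.H167

theorem hessStmt : HessStmt :=
  fun _ u m z s ε ξ _ hε hu h0 hm hm0 => hess_core u m z s ε ξ hε hu h0 hm hm0

end Vale.Agent.P281.H167
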